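import Mathlib

namespace Vale.Agent.Lib.P333

variable {α : Type*}

/-- `IsOverlap a b k`: some string of length `k` is both a suffix of `a` and a beginning of `b`. -/
def IsOverlap (a b : List α) (k : ℕ) : Prop :=
  ∃ u : List α, u.length = k ∧ u <:+ a ∧ u <+: b

/-- The discarding step: keep the strings of `F` that are not contiguous substrings of
another string of `F`. -/
def discardFactors [DecidableEq α] (F : Finset (List α)) : Finset (List α) :=
  F.filter (fun s => ∀ s' ∈ F, s <:+: s' → s' = s)

/-- One step of the greedy algorithm: two distinct strings `a`, `b` of the current family whose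
overlap `k` is longest among all overlaps of ordered pairs of distinct strings of the family
(ties broken arbitrarily) are replaced by their merge `a ++ b.drop k` along that overlap. -/
def GreedyStep [DecidableEq α] (F F' : Finset (List α)) : Prop :=
  ∃ a ∈ F, ∃ b ∈ F, a ≠ b ∧ ∃ k : ℕ, IsOverlap a b k ∧
    (∀ c ∈ F, ∀ d ∈ F, c ≠ d → ∀ j : ℕ, IsOverlap c d j → j ≤ k) ∧
    F' = insert (a ++ b.drop k) ((F.erase a).erase b)

/-- `GreedyOutput F t`: the string `t` is a possible output of the greedy algorithm on `F`
(discard substrings, then greedy steps until a single string `t` remains). -/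
def GreedyOutput [DecidableEq α] (F : Finset (List α)) (t : List α) : Prop :=
  Relation.ReflTransGen GreedyStep (discardFactors F) {t}

end Vale.Agent.Lib.P333
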