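import Mathlib
import Vale.Agent.Lib.P333.Defs

namespace Vale.Agent.Lib.P333

variable {α : Type*}

theorem IsOverlap.le_left {a b : List α} {k : ℕ} (h : IsOverlap a b k) : k ≤ a.length := by
  obtain ⟨u, rfl, hs, -⟩ := h
  exact hs.length_le

theorem IsOverlap.le_right {a b : List α} {k : ℕ} (h : IsOverlap a b k) : k ≤ b.length := by
  obtain ⟨u, rfl, -, hp⟩ := h
  exact hp.length_le

theorem isOverlap_zero (a b : List α) : IsOverlap a b 0 :=
  ⟨[], rfl, List.nil_suffix, List.nil_prefix⟩

/-- The longest overlap of `a` into `b`. -/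
noncomputable def ov (a b : List α) : ℕ := sSup {k | IsOverlap a b k}

theorem ov_spec (a b : List α) : IsOverlap a b (ov a b) := by
  have hne : {k | IsOverlap a b k}.Nonempty := ⟨0, isOverlap_zero a b⟩
  have hbdd : BddAbove {k | IsOverlap a b k} := ⟨a.length, fun k hk => IsOverlap.le_left hk⟩
  exact Nat.sSup_mem hne hbdd

theorem le_ov {a b : List α} {j : ℕ} (h : IsOverlap a b j) : j ≤ ov a b :=
  le_csSup ⟨a.length, fun _ hk => IsOverlap.le_left hk⟩ h

theorem merge_eq {a b : List α} {k : ℕ} (h : IsOverlap a b k) :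
    a ++ b.drop k = a.take (a.length - k) ++ b := by
  obtain ⟨u, rfl, ⟨a', rfl⟩, ⟨b', rfl⟩⟩ := h
  simp

theorem suffix_merge {a b : List α} {k : ℕ} (h : IsOverlap a b k) :
    b <:+ a ++ b.drop k := by
  rw [merge_eq h]
  exact List.suffix_append _ _

theorem monge {a b c d : List α} {u v w : ℕ} (hab : IsOverlap a b u) (had : IsOverlap a d v)
    (hcb : IsOverlap c b w) (hv : v ≤ u) (hw : w ≤ u) : IsOverlap c d (v + w - u) := by
  obtain ⟨U, rfl, hUa, hUb⟩ := hab
  obtain ⟨V, rfl, hVa, hVd⟩ := had
  obtain ⟨W, rfl, hWc, hWb⟩ := hcb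
  have hVU : V <:+ U := List.suffix_of_suffix_length_le hVa hUa hv
  have hWU : W <+: U := List.prefix_of_prefix_length_le hWb hUb hw
  have e1 : U.take W.length = W := (List.prefix_iff_eq_take.mp hWU).symm
  have e2 : U.drop (U.length - V.length) = V := (List.suffix_iff_eq_drop.mp hVU).symm
  refine ⟨(U.take W.length).drop (U.length - V.length), ?_, ?_, ?_⟩
  · simp only [List.length_drop, List.length_take]
    omega
  · rw [e1]
    exact (List.drop_suffix _ _).trans hWc
  · rw [List.drop_take, e2]
    exact (List.take_prefix _ _).trans hVd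

/-- No member is a contiguous substring of another member. -/
def FactorFree (F : Finset (List α)) : Prop := ∀ s ∈ F, ∀ s' ∈ F, s <:+: s' → s = s'

theorem FactorFree.lt_left {F : Finset (List α)} (hF : FactorFree F) {a b : List α} (ha : a ∈ F)
    (hb : b ∈ F) (hab : a ≠ b) {k : ℕ} (h : IsOverlap a b k) : k < a.length := by
  obtain ⟨u, rfl, hs, hp⟩ := h
  rcases Nat.lt_or_ge u.length a.length with h1 | h1
  · exact h1
  · exfalso
    have : u = a := hs.eq_of_length_le h1
    subst this
    exact hab (hF _ ha _ hb hp.isInfix)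

theorem FactorFree.lt_right {F : Finset (List α)} (hF : FactorFree F) {a b : List α} (ha : a ∈ F)
    (hb : b ∈ F) (hab : a ≠ b) {k : ℕ} (h : IsOverlap a b k) : k < b.length := by
  obtain ⟨u, rfl, hs, hp⟩ := h
  rcases Nat.lt_or_ge u.length b.length with h1 | h1
  · exact h1
  · exfalso
    have : u = b := hp.eq_of_length_le h1
    subst this
    exact hab (hF _ hb _ ha hs.isInfix).symm

theorem factorFree_discard [DecidableEq α] (F : Finset (List α)) :
    FactorFree (discardFactors F) := by
  intro s hs s' hs' h
  rw [discardFactors, Finset.mem_filter] at hs hs'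
  exact (hs.2 s' hs'.1 h).symm

theorem exists_discard_super [DecidableEq α] (F : Finset (List α)) (s : List α) (hs : s ∈ F) :
    ∃ s' ∈ discardFactors F, s <:+: s' := by
  have hne : (F.filter (fun x => s <:+: x)).Nonempty :=
    ⟨s, Finset.mem_filter.mpr ⟨hs, List.infix_refl s⟩⟩
  obtain ⟨m, hm, hmax⟩ := Finset.exists_max_image _ (fun x : List α => x.length) hne
  rw [Finset.mem_filter] at hm
  refine ⟨m, ?_, hm.2⟩
  rw [discardFactors, Finset.mem_filter]
  refine ⟨hm.1, fun s' hs' hms' => ?_⟩
  have h1 : s'.length ≤ m.length :=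
    hmax s' (Finset.mem_filter.mpr ⟨hs', hm.2.trans hms'⟩)
  exact (hms'.eq_of_length_le h1).symm


/-- Total length of a family. -/
def tl (F : Finset (List α)) : ℕ := ∑ s ∈ F, s.length

theorem tl_singleton (t : List α) : tl ({t} : Finset (List α)) = t.length := by
  simp [tl]

theorem tl_step [DecidableEq α] {F : Finset (List α)} {a b : List α} (ha : a ∈ F) (hb : b ∈ F)
    (hab : a ≠ b) {k : ℕ} (hk : IsOverlap a b k) :
    tl (insert (a ++ b.drop k) ((F.erase a).erase b)) + k ≤ tl F := by
  have hkb : k ≤ b.length := hk.le_right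
  have hb' : b ∈ F.erase a := Finset.mem_erase.mpr ⟨fun h => hab h.symm, hb⟩
  have h1 : a.length + tl (F.erase a) = tl F := Finset.add_sum_erase F _ ha
  have h2 : b.length + tl ((F.erase a).erase b) = tl (F.erase a) :=
    Finset.add_sum_erase (F.erase a) _ hb'
  have h3 : tl (insert (a ++ b.drop k) ((F.erase a).erase b))
      ≤ (a ++ b.drop k).length + tl ((F.erase a).erase b) := by
    by_cases hm : (a ++ b.drop k) ∈ (F.erase a).erase b
    · rw [Finset.insert_eq_of_mem hm]
      exact Nat.le_add_left _ _
    · unfold tl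
      rw [Finset.sum_insert hm]
  have h4 : (a ++ b.drop k).length = a.length + (b.length - k) := by simp
  omega

theorem run_length [DecidableEq α] {F : Finset (List α)} {t : List α}
    (h : Relation.ReflTransGen GreedyStep F {t}) : t.length ≤ tl F := by
  induction h using Relation.ReflTransGen.head_induction_on with
  | refl => rw [tl_singleton]
  | head hstep _ ih =>
    obtain ⟨a, ha, b, hb, hab, k, hk, -, rfl⟩ := hstep
    have := tl_step ha hb hab hk
    omega

theorem step_super [DecidableEq α] {F F' : Finset (List α)} (h : GreedyStep F F') :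
    ∀ s ∈ F, ∃ s' ∈ F', s <:+: s' := by
  obtain ⟨a, ha, b, hb, hab, k, hk, -, rfl⟩ := h
  intro s hs
  by_cases hsa : s = a
  · subst hsa
    exact ⟨_, Finset.mem_insert_self _ _, (List.prefix_append _ _).isInfix⟩
  by_cases hsb : s = b
  · subst hsb
    exact ⟨_, Finset.mem_insert_self _ _, (suffix_merge hk).isInfix⟩
  · exact ⟨s, Finset.mem_insert_of_mem (Finset.mem_erase.mpr ⟨hsb, Finset.mem_erase.mpr ⟨hsa, hs⟩⟩),
      List.infix_refl s⟩

theorem run_super [DecidableEq α] {F : Finset (List α)} {t : List α}
    (h : Relation.ReflTransGen GreedyStep F {t}) : ∀ s ∈ F, s <:+: t := by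
  induction h using Relation.ReflTransGen.head_induction_on with
  | refl =>
    intro s hs
    rw [Finset.mem_singleton] at hs
    subst hs
    exact List.infix_refl _
  | head hstep _ ih =>
    intro s hs
    obtain ⟨s', hs', hss'⟩ := step_super hstep s hs
    exact hss'.trans (ih s' hs')

theorem avail [DecidableEq α] {F : Finset (List α)} (hF : FactorFree F) {a b : List α}
    (ha : a ∈ F) (hb : b ∈ F) {k g : ℕ} (hk : IsOverlap a b k)
    (hg : ∀ c' ∈ insert (a ++ b.drop k) ((F.erase a).erase b),
      ∀ d' ∈ insert (a ++ b.drop k) ((F.erase a).erase b), c' ≠ d' →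
      ∀ j : ℕ, IsOverlap c' d' j → j ≤ g)
    {c d : List α} (hc : c ∈ F) (hd : d ∈ F) (hcd : c ≠ d) (hca : c ≠ a) (hdb : d ≠ b)
    (hcyc : ¬(c = b ∧ d = a)) {j : ℕ} (hj : IsOverlap c d j) : j ≤ g := by
  have hmem : ∀ x ∈ F, x ≠ a → x ≠ b → x ∈ insert (a ++ b.drop k) ((F.erase a).erase b) :=
    fun x hx hxa hxb =>
      Finset.mem_insert_of_mem (Finset.mem_erase.mpr ⟨hxb, Finset.mem_erase.mpr ⟨hxa, hx⟩⟩)
  have hm : (a ++ b.drop k) ∈ insert (a ++ b.drop k) ((F.erase a).erase b) :=
    Finset.mem_insert_self _ _
  by_cases hcb : c = b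
  · subst hcb
    have hda : d ≠ a := fun h => hcyc ⟨rfl, h⟩
    have hne : a ++ c.drop k ≠ d := by
      intro h
      have h1 : a <:+: d := h ▸ (List.prefix_append _ _).isInfix
      exact hda (hF _ ha _ hd h1).symm
    obtain ⟨u, hu, hus, hup⟩ := hj
    exact hg _ hm d (hmem d hd hda hdb) hne j ⟨u, hu, hus.trans (suffix_merge hk), hup⟩
  · by_cases hda : d = a
    · subst hda
      have hne : c ≠ d ++ b.drop k := by
        intro h
        have h1 : b <:+: c := h ▸ (suffix_merge hk).isInfix
        exact hcb (hF _ hb _ hc h1).symm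
      obtain ⟨u, hu, hus, hup⟩ := hj
      exact hg c (hmem c hc hca hcb) _ hm hne j ⟨u, hu, hus, hup.trans (List.prefix_append _ _)⟩
    · exact hg c (hmem c hc hca hcb) d (hmem d hd hda hdb) hcd j hj


theorem one_step [DecidableEq α] {F : Finset (List α)} (hcard : 2 ≤ F.card) {t : List α}
    (h : Relation.ReflTransGen GreedyStep F {t}) :
    ∃ k : ℕ, (∀ c ∈ F, ∀ d ∈ F, c ≠ d → ∀ j : ℕ, IsOverlap c d j → j ≤ k) ∧
      t.length + k ≤ tl F := by
  rcases Relation.ReflTransGen.cases_head h with h0 | ⟨F', hstep, hrun⟩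
  · rw [h0, Finset.card_singleton] at hcard
    omega
  · obtain ⟨a, ha, b, hb, hab, k, hk, hmax, rfl⟩ := hstep
    refine ⟨k, hmax, ?_⟩
    have h1 := run_length hrun
    have h2 := tl_step ha hb hab hk
    omega

theorem two_steps [DecidableEq α] {F : Finset (List α)} (hF : FactorFree F) (hcard : 3 ≤ F.card)
    {t : List α} (h : Relation.ReflTransGen GreedyStep F {t}) :
    ∃ a ∈ F, ∃ b ∈ F, a ≠ b ∧ ∃ k g : ℕ, IsOverlap a b k ∧
      (∀ c ∈ F, ∀ d ∈ F, c ≠ d → ∀ j : ℕ, IsOverlap c d j → j ≤ k) ∧
      (∀ c ∈ F, ∀ d ∈ F, c ≠ d → c ≠ a → d ≠ b → ¬(c = b ∧ d = a) →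
        ∀ j : ℕ, IsOverlap c d j → j ≤ g) ∧
      t.length + k + g ≤ tl F := by
  rcases Relation.ReflTransGen.cases_head h with h0 | ⟨F', hstep, hrun⟩
  · rw [h0, Finset.card_singleton] at hcard
    omega
  · obtain ⟨a, ha, b, hb, hab, k, hk, hmax, rfl⟩ := hstep
    have h2 := tl_step ha hb hab hk
    rcases Relation.ReflTransGen.cases_head hrun with h0 | ⟨F'', hstep2, hrun2⟩
    · exfalso
      have hb' : b ∈ F.erase a := Finset.mem_erase.mpr ⟨fun h => hab h.symm, hb⟩
      have hc1 : (F.erase a).card = F.card - 1 := Finset.card_erase_of_mem ha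
      have hc2 : ((F.erase a).erase b).card = (F.erase a).card - 1 := Finset.card_erase_of_mem hb'
      have hpos : 0 < ((F.erase a).erase b).card := by omega
      obtain ⟨x, hx⟩ := Finset.card_pos.mp hpos
      have hx' := hx
      rw [Finset.mem_erase, Finset.mem_erase] at hx'
      have hxm : x ∈ insert (a ++ b.drop k) ((F.erase a).erase b) := Finset.mem_insert_of_mem hx
      have hmm : (a ++ b.drop k) ∈ insert (a ++ b.drop k) ((F.erase a).erase b) :=
        Finset.mem_insert_self _ _
      rw [h0, Finset.mem_singleton] at hxm hmm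
      have hax : a <:+: x := by
        rw [hxm, ← hmm]
        exact (List.prefix_append _ _).isInfix
      exact hx'.2.1 (hF _ ha _ hx'.2.2 hax).symm
    · obtain ⟨a2, ha2, b2, hb2, hab2, g, hg, hmax2, rfl⟩ := hstep2
      refine ⟨a, ha, b, hb, hab, k, g, hk, hmax, ?_, ?_⟩
      · intro c hc d hd hcd hca hdb hcyc j hj
        exact avail hF ha hb hk hmax2 hc hd hcd hca hdb hcyc hj
      · have h3 := tl_step ha2 hb2 hab2 hg
        have h4 := run_length hrun2
        omega

/-- Length of the string obtained by merging a chain of strings along longest overlaps;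
the list is read from right to left (its head is the last string of the chain). -/
noncomputable def chainLen : List (List α) → ℕ
  | [] => 0
  | [z] => z.length
  | z :: y :: rest => z.length - ov y z + chainLen (y :: rest)

theorem position_overlap {P₀ P y z : List α} (hP : P₀ <+: P) (hlt : P₀.length < P.length)
    (hy : y <:+ P₀) (hz : z <:+ P) (hyz : ¬ y <:+: z) :
    P₀.length + z.length ≤ P.length + ov y z := by
  by_cases hcase : P₀.length + z.length ≤ P.length
  · omega
  · have hzP : z.length ≤ P.length := hz.length_le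
    obtain ⟨R, rfl⟩ := hP
    -- z is a suffix of P₀ ++ R, longer than R
    have hzeq : z = (P₀ ++ R).drop ((P₀ ++ R).length - z.length) := List.suffix_iff_eq_drop.mp hz
    have hlen : (P₀ ++ R).length = P₀.length + R.length := List.length_append
    set j := P₀.length + z.length - (P₀.length + R.length) with hj
    have hdrop : (P₀ ++ R).drop ((P₀ ++ R).length - z.length)
        = P₀.drop (P₀.length - j) ++ R := by
      rw [List.drop_append_of_le_length (by omega)]
      congr 2
      omega
    have hu : IsOverlap y z j := by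
      refine ⟨P₀.drop (P₀.length - j), ?_, ?_, ?_⟩
      · rw [List.length_drop]; omega
      · have hsP : P₀.drop (P₀.length - j) <:+ P₀ := List.drop_suffix _ _
        rcases Nat.le_total (P₀.drop (P₀.length - j)).length y.length with h1 | h1
        · exact List.suffix_of_suffix_length_le hsP hy h1
        · exfalso
          have h2 : y <:+ P₀.drop (P₀.length - j) := List.suffix_of_suffix_length_le hy hsP h1
          apply hyz
          rw [hzeq, hdrop]
          exact h2.isInfix.trans (List.prefix_append _ _).isInfix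
      · rw [hzeq, hdrop]
        exact List.prefix_append _ _
    have := le_ov hu
    omega


theorem arr [DecidableEq α] (n : ℕ) : ∀ (F : Finset (List α)), F.card = n + 1 → FactorFree F →
    ∀ T : List α, (∀ s ∈ F, s <:+: T) →
    ∃ (z : List α) (L : List (List α)) (P : List α), (z :: L).Nodup ∧ (∀ s, s ∈ z :: L ↔ s ∈ F) ∧
      P <+: T ∧ z <:+ P ∧ chainLen (z :: L) ≤ P.length := by
  induction n with
  | zero =>
    intro F hcard hF T hT
    obtain ⟨z, rfl⟩ := Finset.card_eq_one.mp hcard
    obtain ⟨x, y, hxy⟩ := hT z (Finset.mem_singleton_self z)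
    refine ⟨z, [], x ++ z, by simp, by simp, ?_, List.suffix_append _ _, ?_⟩
    · exact ⟨y, hxy⟩
    · simp [chainLen]
  | succ n ih =>
    intro F hcard hF T hT
    have hpos : ∀ s ∈ F, ∃ p : ℕ, p ≤ T.length ∧ s <:+ T.take p := by
      intro s hs
      obtain ⟨x, y, hxy⟩ := hT s hs
      refine ⟨(x ++ s).length, ?_, ?_⟩
      · rw [← hxy]; simp
      · rw [← hxy, List.take_left']
        · exact List.suffix_append _ _
        · rfl
    choose! e he using hpos
    have hne : F.Nonempty := by
      rw [← Finset.card_pos]; omega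
    obtain ⟨z, hz, hmax⟩ := Finset.exists_max_image F e hne
    have hlt : ∀ s ∈ F.erase z, e s < e z := by
      intro s hs
      rw [Finset.mem_erase] at hs
      rcases Nat.lt_or_ge (e s) (e z) with h | h
      · exact h
      · exfalso
        have heq : e s = e z := le_antisymm (hmax s hs.2) h
        have h1 := (he s hs.2).2
        have h2 := (he z hz).2
        rw [heq] at h1
        rcases List.suffix_or_suffix_of_suffix h1 h2 with h3 | h3
        · exact hs.1 (hF _ hs.2 _ hz h3.isInfix)
        · exact hs.1 (hF _ hz _ hs.2 h3.isInfix).symm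
    have hcard' : (F.erase z).card = n + 1 := by
      rw [Finset.card_erase_of_mem hz]; omega
    have hF' : FactorFree (F.erase z) := fun s hs s' hs' h =>
      hF s (Finset.mem_of_mem_erase hs) s' (Finset.mem_of_mem_erase hs') h
    have hT' : ∀ s ∈ F.erase z, s <:+: T.take (e z - 1) := by
      intro s hs
      have h1 := (he s (Finset.mem_of_mem_erase hs)).2
      have h2 : T.take (e s) <+: T.take (e z - 1) := by
        have := hlt s hs
        exact List.take_prefix_take_left (by omega)
      exact h1.isInfix.trans h2.isInfix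
    obtain ⟨y, L₀, P₀, hnd, hmem, hP₀, hyP₀, hchain⟩ := ih (F.erase z) hcard' hF' _ hT'
    have hyF : y ∈ F.erase z := (hmem y).mp List.mem_cons_self
    have hezpos : 0 < e z := by have := hlt y hyF; omega
    refine ⟨z, y :: L₀, T.take (e z), ?_, ?_, List.take_prefix _ _, (he z hz).2, ?_⟩
    · rw [List.nodup_cons]
      refine ⟨fun h => ?_, hnd⟩
      have := (hmem z).mp h
      simp at this
    · intro s
      rw [List.mem_cons, hmem s, Finset.mem_erase]
      constructor
      · rintro (rfl | ⟨-, h⟩)
        · exact hz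
        · exact h
      · intro h
        by_cases hsz : s = z
        · exact Or.inl hsz
        · exact Or.inr ⟨hsz, h⟩
    · have hlen1 : (T.take (e z)).length = e z := by
        rw [List.length_take]; exact min_eq_left (he z hz).1
      have hlen0 : P₀.length ≤ e z - 1 := by
        have := hP₀.length_le
        rw [List.length_take] at this
        exact this.trans (min_le_left _ _)
      have hPP : P₀ <+: T.take (e z) :=
        hP₀.trans (List.take_prefix_take_left (by omega))
      have hyz : ¬ y <:+: z := by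
        intro h
        rw [Finset.mem_erase] at hyF
        exact hyF.1 (hF _ hyF.2 _ hz h)
      have key := position_overlap hPP (by omega) hyP₀ (he z hz).2 hyz
      have hov : ov y z ≤ z.length := (ov_spec y z).le_right
      show z.length - ov y z + chainLen (y :: L₀) ≤ _
      omega


end Vale.Agent.Lib.P333
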