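import Mathlib
import Vale.Agent.Lib.P333.Basic

namespace Vale.Agent.Lib.P333

variable {α : Type*}

theorem greedy_four [DecidableEq α] (F : Finset (List α)) (hF : (discardFactors F).card ≤ 4)
    (t T : List α) (ht : GreedyOutput F t) (hT : ∀ s ∈ F, s <:+: T) :
    (∀ s ∈ F, s <:+: t) ∧ t.length ≤ 2 * T.length := by
  unfold GreedyOutput at ht
  have hff : FactorFree (discardFactors F) := factorFree_discard F
  have hsup : ∀ s ∈ discardFactors F, s <:+: t := run_super ht
  refine ⟨fun s hs => ?_, ?_⟩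
  · obtain ⟨s', hs', hss'⟩ := exists_discard_super F s hs
    exact hss'.trans (hsup s' hs')
  have hT₀ : ∀ s ∈ discardFactors F, s <:+: T := fun s hs =>
    hT s (Finset.mem_of_mem_filter s hs)
  generalize discardFactors F = F₀ at *
  have hne : F₀.Nonempty := by
    rcases Relation.ReflTransGen.cases_head ht with h0 | ⟨F', hstep, -⟩
    · rw [h0]; exact Finset.singleton_nonempty t
    · obtain ⟨a, ha, -⟩ := hstep
      exact ⟨a, ha⟩
  obtain ⟨n, hn⟩ : ∃ n, F₀.card = n + 1 := ⟨F₀.card - 1, by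
    have := Finset.card_pos.mpr hne; omega⟩
  obtain ⟨z, L, P, hnd, hmem, hPT, hzP, hchain⟩ := arr n F₀ hn hff T hT₀
  have hPlen : P.length ≤ T.length := hPT.length_le
  have hFL : F₀ = (z :: L).toFinset := by
    ext s; rw [List.mem_toFinset, hmem]
  have hlen : (z :: L).length = n + 1 := by
    rw [← hn, hFL, List.toFinset_card_of_nodup hnd]
  have htl : tl F₀ = ((z :: L).map List.length).sum := by
    unfold tl
    rw [hFL, List.sum_toFinset _ hnd]
  have hstrict : ∀ c ∈ F₀, ∀ d ∈ F₀, c ≠ d → ov c d < c.length ∧ ov c d < d.length :=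
    fun c hc d hd hcd => ⟨hff.lt_left hc hd hcd (ov_spec c d), hff.lt_right hc hd hcd (ov_spec c d)⟩
  match L, hnd, hmem, hchain, hlen, htl with
  | [], hnd, hmem, hchain, hlen, htl =>
    have h1 := run_length ht
    simp [chainLen] at hchain htl
    omega
  | [y], hnd, hmem, hchain, hlen, htl =>
    have hcard : 2 ≤ F₀.card := by simp at hlen; omega
    obtain ⟨k, hmax, hk⟩ := one_step hcard ht
    have hz : z ∈ F₀ := (hmem z).mp (by simp)
    have hy : y ∈ F₀ := (hmem y).mp (by simp)
    have hyz : y ≠ z := by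
      intro h; subst h; simp at hnd
    have h1 := hmax y hy z hz hyz _ (ov_spec y z)
    have h2 := hstrict y hy z hz hyz
    simp [chainLen] at hchain htl
    omega
  | [y, x], hnd, hmem, hchain, hlen, htl =>
    have hcard : 2 ≤ F₀.card := by simp at hlen; omega
    obtain ⟨k, hmax, hk⟩ := one_step hcard ht
    have hz : z ∈ F₀ := (hmem z).mp (by simp)
    have hy : y ∈ F₀ := (hmem y).mp (by simp)
    have hx : x ∈ F₀ := (hmem x).mp (by simp)
    simp only [List.nodup_cons, List.mem_cons, List.not_mem_nil, or_false, not_or,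
      List.nodup_nil, and_true, not_false_eq_true] at hnd
    obtain ⟨⟨hzy, hzx⟩, hyx⟩ := hnd
    have h1 := hmax y hy z hz (Ne.symm hzy) _ (ov_spec y z)
    have h2 := hstrict y hy z hz (Ne.symm hzy)
    have h3 := hmax x hx y hy (Ne.symm hyx) _ (ov_spec x y)
    have h4 := hstrict x hx y hy (Ne.symm hyx)
    simp [chainLen] at hchain htl
    omega
  | [y, x, w], hnd, hmem, hchain, hlen, htl =>
    have hcard : 3 ≤ F₀.card := by simp at hlen; omega
    obtain ⟨a, ha, b, hb, hab, k, g, hk, hmax, hav, hkg⟩ := two_steps hff hcard ht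
    have hz : z ∈ F₀ := (hmem z).mp (by simp)
    have hy : y ∈ F₀ := (hmem y).mp (by simp)
    have hx : x ∈ F₀ := (hmem x).mp (by simp)
    have hw : w ∈ F₀ := (hmem w).mp (by simp)
    simp only [List.nodup_cons, List.mem_cons, List.not_mem_nil, or_false, not_or,
      List.nodup_nil, and_true, not_false_eq_true] at hnd
    obtain ⟨⟨hzy, hzx, hzw⟩, ⟨hyx, hyw⟩, hxw⟩ := hnd
    have m1 := hmax w hw x hx (Ne.symm hxw) _ (ov_spec w x)
    have m2 := hmax x hx y hy (Ne.symm hyx) _ (ov_spec x y)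
    have m3 := hmax y hy z hz (Ne.symm hzy) _ (ov_spec y z)
    have s1 := hstrict w hw x hx (Ne.symm hxw)
    have s2 := hstrict x hx y hy (Ne.symm hyx)
    have s3 := hstrict y hy z hz (Ne.symm hzy)
    have a1 : w ≠ a → x ≠ b → ¬(w = b ∧ x = a) → ov w x ≤ g := fun h1 h2 h3 =>
      hav w hw x hx (Ne.symm hxw) h1 h2 h3 _ (ov_spec w x)
    have a2 : x ≠ a → y ≠ b → ¬(x = b ∧ y = a) → ov x y ≤ g := fun h1 h2 h3 =>
      hav x hx y hy (Ne.symm hyx) h1 h2 h3 _ (ov_spec x y)
    have a3 : y ≠ a → z ≠ b → ¬(y = b ∧ z = a) → ov y z ≤ g := fun h1 h2 h3 =>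
      hav y hy z hz (Ne.symm hzy) h1 h2 h3 _ (ov_spec y z)
    have a4 : a = y → b = x → ov y z + ov w x - k ≤ g := by
      intro h1 h2
      subst h1 h2
      have hm := monge hk (ov_spec a z) (ov_spec w b) m3 m1
      exact hav w hw z hz (Ne.symm hzw) (Ne.symm hyw) hzx (fun h => hxw h.1.symm) _ hm
    have ha' := (hmem a).mpr ha
    have hb' := (hmem b).mpr hb
    simp only [List.mem_cons, List.not_mem_nil, or_false] at ha' hb'
    simp [chainLen] at hchain htl
    rcases ha' with ha' | ha' | ha' | ha' <;> rcases hb' with hb' | hb' | hb' | hb' <;>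
      first
      | exact absurd (ha'.trans hb'.symm) hab
      | (simp [ha', hb', hzy, hzx, hzw, hyx, hyw, hxw, Ne.symm hzy, Ne.symm hzx, Ne.symm hzw,
          Ne.symm hyx, Ne.symm hyw, Ne.symm hxw] at a1 a2 a3 a4
         omega)
  | _ :: _ :: _ :: _ :: _, hnd, hmem, hchain, hlen, htl =>
    simp at hlen
    omega

end Vale.Agent.Lib.P333
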